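/-
helper44 — row 82 (S0109), package (D), leaf D5 `final_conversion`:
from the real-valued L² bound to the `ℝ≥0∞` conclusion of S0109.

Statement copied verbatim from `Crest/Agent/Helper66/OT/SubSpec.lean`
(`Crest.Agent.Helper66.OT.SubSpec.final_conversion`), proved here in
`namespace Crest.Agent.Helper66.OT`.  Mathlib + Prelude only; no definition of the Prelude
is unfolded by an equation lemma (only `rfl`-restatements below).
-/
import Mathlib
import Crest.Prelude.Def_QuadraticTransport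

set_option autoImplicit false
open MeasureTheory Filter Topology
open scoped ENNReal NNReal
open Crest.AnalysisR.OT

namespace Crest.Agent.Helper66.OT

section FinalConversion
variable {d : ℕ}

/-- `uniformProbOn K` restated (by `rfl`). -/
theorem h44fc_rho_def (K : Set (EuclideanSpace ℝ (Fin d))) :
    uniformProbOn K = (volume K)⁻¹ • volume.restrict K := rfl

/-- `quadCost π` restated (by `rfl`). -/
theorem h44fc_quadCost_def
    (π : Measure (EuclideanSpace ℝ (Fin d) × EuclideanSpace ℝ (Fin d))) :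
    quadCost π = ∫⁻ p, ‖p.1 - p.2‖ₑ ^ 2 ∂π := rfl

/-- A measurable map pushing `uniformProbOn K` to a measure carried by `Y ⊆ closedBall 0 M`
is bounded by `M` almost everywhere on `K`. -/
theorem h44fc_ae_norm_le (K : Set (EuclideanSpace ℝ (Fin d))) (hKc : IsCompact K)
    (Y : Set (EuclideanSpace ℝ (Fin d))) (hYc : IsCompact Y)
    (M : ℝ) (hM : ∀ y ∈ Y, ‖y‖ ≤ M)
    (μ : Measure (EuclideanSpace ℝ (Fin d))) (hμ : IsProbabilityOn Y μ)
    (T : EuclideanSpace ℝ (Fin d) → EuclideanSpace ℝ (Fin d)) (hT : Measurable T)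
    (hp : (uniformProbOn K).map T = μ) :
    ∀ᵐ x ∂(volume.restrict K), ‖T x‖ ≤ M := by
  have hYm : MeasurableSet Y := hYc.isClosed.measurableSet
  have h0 : (uniformProbOn K) (T ⁻¹' Yᶜ) = 0 := by
    rw [← Measure.map_apply hT hYm.compl, hp]
    exact hμ.2
  have h1 : ∀ᵐ x ∂(uniformProbOn K), T x ∈ Y := by
    rw [ae_iff]
    exact h0
  have h2 : ∀ᵐ x ∂(volume.restrict K), T x ∈ Y := by
    rw [h44fc_rho_def] at h1
    exact (Measure.ae_ennreal_smul_measure_iff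
      (ENNReal.inv_ne_zero.2 hKc.measure_lt_top.ne)).1 h1
  exact h2.mono (fun x hx => hM _ hx)

/-- For a bounded-a.e. nonnegative measurable integrand on a finite measure, the lower integral
of the `ofReal` is the `ofReal` of the integral (squared-norm form). -/
theorem h44fc_lintegral_enorm_sq {α : Type*} [MeasurableSpace α] (m : Measure α)
    [IsFiniteMeasure m] (f : α → EuclideanSpace ℝ (Fin d)) (hf : Measurable f) (B : ℝ)
    (hB : ∀ᵐ x ∂m, ‖f x‖ ≤ B) :
    ∫⁻ x, ‖f x‖ₑ ^ 2 ∂m = ENNReal.ofReal (∫ x, ‖f x‖ ^ 2 ∂m) := by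
  have hmeas : AEStronglyMeasurable (fun x => ‖f x‖ ^ 2) m :=
    (hf.norm.pow_const 2).aestronglyMeasurable
  have hint : Integrable (fun x => ‖f x‖ ^ 2) m := by
    refine Integrable.mono' (integrable_const (B ^ 2)) hmeas ?_
    filter_upwards [hB] with x hx
    rw [Real.norm_of_nonneg (by positivity)]
    exact pow_le_pow_left₀ (norm_nonneg _) hx 2
  rw [ofReal_integral_eq_lintegral_ofReal hint (Eventually.of_forall (fun x => by positivity))]
  refine lintegral_congr (fun x => ?_)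
  rw [← ofReal_norm, ENNReal.ofReal_pow (norm_nonneg _)]

end FinalConversion

/-- **D5 (final conversion).** From the real-valued bound to the `ℝ≥0∞` statement of S0109. -/
theorem final_conversion {d : ℕ} (K : Set (EuclideanSpace ℝ (Fin d))) (hKc : IsCompact K)
    (hKi : (interior K).Nonempty) (Y : Set (EuclideanSpace ℝ (Fin d))) (hYc : IsCompact Y)
    (M : ℝ) (hM : ∀ y ∈ Y, ‖y‖ ≤ M) (a : ℝ) (ha : 0 ≤ a)
    (μ ν : Measure (EuclideanSpace ℝ (Fin d))) (hμ : IsProbabilityOn Y μ)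
    (hν : IsProbabilityOn Y ν)
    (Tμ Tν : EuclideanSpace ℝ (Fin d) → EuclideanSpace ℝ (Fin d)) (hTμ : Measurable Tμ)
    (hTν : Measurable Tν) (hpμ : (uniformProbOn K).map Tμ = μ)
    (hpν : (uniformProbOn K).map Tν = ν)
    (π : Measure (EuclideanSpace ℝ (Fin d) × EuclideanSpace ℝ (Fin d)))
    (hπ : IsPairCoupling μ ν π)
    (hreal : ∫ x in K, ‖Tμ x - Tν x‖ ^ 2 ≤ a * (∫ p, ‖p.1 - p.2‖ ^ 2 ∂π) ^ (1 / 3 : ℝ)) :
    ∫⁻ x, ‖Tμ x - Tν x‖ₑ ^ 2 ∂(uniformProbOn K)
      ≤ (Real.toNNReal ((volume K).toReal⁻¹ * a) : ℝ≥0∞) * quadCost π ^ (1 / 3 : ℝ) := by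
  have hYm : MeasurableSet Y := hYc.isClosed.measurableSet
  have hv0 : volume K ≠ 0 := (Measure.measure_pos_of_nonempty_interior volume hKi).ne'
  have hvtop : volume K ≠ ∞ := hKc.measure_lt_top.ne
  have hvpos : 0 < (volume K).toReal := ENNReal.toReal_pos hv0 hvtop
  -- the left-hand side
  have : IsFiniteMeasure (volume.restrict K) :=
    ⟨by rw [Measure.restrict_apply_univ]; exact hKc.measure_lt_top⟩
  have hB : ∀ᵐ x ∂(volume.restrict K), ‖Tμ x - Tν x‖ ≤ 2 * M := by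
    filter_upwards [h44fc_ae_norm_le K hKc Y hYc M hM μ hμ Tμ hTμ hpμ,
      h44fc_ae_norm_le K hKc Y hYc M hM ν hν Tν hTν hpν] with x h1 h2
    calc ‖Tμ x - Tν x‖ ≤ ‖Tμ x‖ + ‖Tν x‖ := norm_sub_le _ _
      _ ≤ 2 * M := by linarith
  have hL : ∫⁻ x, ‖Tμ x - Tν x‖ₑ ^ 2 ∂(uniformProbOn K)
      = ENNReal.ofReal ((volume K).toReal⁻¹ * ∫ x in K, ‖Tμ x - Tν x‖ ^ 2) := by
    rw [h44fc_rho_def, lintegral_smul_measure, smul_eq_mul,
      h44fc_lintegral_enorm_sq (volume.restrict K) (fun x => Tμ x - Tν x) (hTμ.sub hTν)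
        (2 * M) hB,
      ENNReal.ofReal_mul (inv_nonneg.2 hvpos.le), ENNReal.ofReal_inv_of_pos hvpos,
      ENNReal.ofReal_toReal hvtop]
  -- the coupling
  have hπfin : IsFiniteMeasure π := by
    constructor
    have h1 : μ Set.univ = 1 := hμ.1.measure_univ
    rw [← hπ.1, Measure.map_apply measurable_fst MeasurableSet.univ, Set.preimage_univ] at h1
    rw [h1]
    exact ENNReal.one_lt_top
  have hπ1 : ∀ᵐ p ∂π, p.1 ∈ Y := by
    have h0 : π (Prod.fst ⁻¹' Yᶜ) = 0 := by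
      rw [← Measure.map_apply measurable_fst hYm.compl, hπ.1]
      exact hμ.2
    rw [ae_iff]
    exact h0
  have hπ2 : ∀ᵐ p ∂π, p.2 ∈ Y := by
    have h0 : π (Prod.snd ⁻¹' Yᶜ) = 0 := by
      rw [← Measure.map_apply measurable_snd hYm.compl, hπ.2]
      exact hν.2
    rw [ae_iff]
    exact h0
  have hBπ : ∀ᵐ p ∂π, ‖p.1 - p.2‖ ≤ 2 * M := by
    filter_upwards [hπ1, hπ2] with p h1 h2
    calc ‖p.1 - p.2‖ ≤ ‖p.1‖ + ‖p.2‖ := norm_sub_le _ _
      _ ≤ 2 * M := by linarith [hM _ h1, hM _ h2]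
  have hcost : quadCost π = ENNReal.ofReal (∫ p, ‖p.1 - p.2‖ ^ 2 ∂π) := by
    rw [h44fc_quadCost_def]
    exact h44fc_lintegral_enorm_sq π (fun p => p.1 - p.2) (measurable_fst.sub measurable_snd)
      (2 * M) hBπ
  have hc0 : 0 ≤ ∫ p, ‖p.1 - p.2‖ ^ 2 ∂π := integral_nonneg (fun p => by positivity)
  -- conclusion
  have hR : (Real.toNNReal ((volume K).toReal⁻¹ * a) : ℝ≥0∞) * quadCost π ^ (1 / 3 : ℝ)
      = ENNReal.ofReal ((volume K).toReal⁻¹ * a * (∫ p, ‖p.1 - p.2‖ ^ 2 ∂π) ^ (1 / 3 : ℝ)) := by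
    rw [hcost, ENNReal.ofReal_rpow_of_nonneg hc0 (by norm_num),
      ENNReal.ofReal_mul (mul_nonneg (inv_nonneg.2 hvpos.le) ha)]
    rfl
  rw [hL, hR]
  refine ENNReal.ofReal_le_ofReal ?_
  rw [mul_assoc]
  exact mul_le_mul_of_nonneg_left hreal (inv_nonneg.2 hvpos.le)

end Crest.Agent.Helper66.OT
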